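import Vale.Agent.P272.S2B.Bounds

/-!
# P272, stage 2: the Chern-Lu barrier

A bounded upper semicontinuous function `ψ` with `g - b w + i∂∂̄ψ ≥ 0` in the viscosity sense gives a
bound for `tr_g w`, uniform in `t`, for the twisted Kähler-Einstein metrics `g`.
-/

open scoped Manifold ContDiff ComplexOrder Topology Matrix
open Complex Set Filter MeasureTheory Metric

noncomputable section

namespace Vale.Agent.P272.S2B

open Vale.Agent.P272.K

variable {n : ℕ} {X : Type} [TopologicalSpace X] [ChartedSpace (Cm n) X]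
variable {w g : Chart n X → Cm n → Matrix (Fin n) (Fin n) ℂ} {φ : Chart n X → Cm n → ℝ} {t : ℝ}

/-- `tr_g w` as a function on `X` -/
def trX (g w : Chart n X → Cm n → Matrix (Fin n) (Fin n) ℂ) (x : X) : ℝ :=
  C2.tau (g (chartAt (Cm n) x)) (w (chartAt (Cm n) x)) (chartAt (Cm n) x x)

theorem trX_pos [NeZero n] (hg : IsHermitian g) (hw : IsHermitian w) (x : X) : 0 < trX g w x :=
  C2.trace_re_pos (hg.posDef _ _ (C2.at_chartAt x)) (hw.posDef _ _ (C2.at_chartAt x))

theorem contDiffAt_tau (hg : IsHermitian g) (hw : IsHermitian w) {e : Chart n X} {x : X}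
    (h : At e x) (m : ℕ) : ContDiffAt ℝ m (C2.tau (g e) (w e)) (e x) :=
  Complex.reCLM.contDiff.contDiffAt.comp (e x)
    ((((C2.mc_of_smooth hg h m).inv (C2.posDef_det_ne_zero (hg.posDef e x h))).mul
      (C2.mc_of_smooth hw h m)).trace)

variable [IsManifold 𝓘(ℂ, Cm n) ω X]

theorem trX_eq (hg : IsHermitian g) (hw : IsHermitian w) {e : Chart n X} {x : X}
    (h : At e x) : trX g w x = C2.tau (g e) (w e) (e x) :=
  congrArg Complex.re (trace_inv hg.isForm hw.isForm (C2.at_chartAt x) h)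

theorem trX_symm_eventually (hg : IsHermitian g) (hw : IsHermitian w) {e : Chart n X}
    {x : X} (h : At e x) :
    (fun z => trX g w (e.symm z)) =ᶠ[𝓝 (e x)] C2.tau (g e) (w e) := by
  filter_upwards [h.nhds_target] with z hz
  rw [trX_eq hg hw (At.of_target h.1 hz), e.right_inv hz]

/-- the Chern-Lu inequality for a twisted Kähler-Einstein metric -/
theorem ke_ineq [NeZero n] (hw : IsKahler w) (hφ : IsKE w t φ) {e : Chart n X} {x : X} {M : ℝ}
    (hM : 0 ≤ M) (ht : 0 ≤ t) (hb : C2.Bd w (fun _ => 0) M e x) :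
    -1 - (n ^ 4 * ((1 + t) * M) ^ 3 * (1 + (1 + t) * M)) * C2.tau (gt w t φ e) (w e) (e x) ≤
      ((gt w t φ e (e x))⁻¹ *
        cHess (fun y => Real.log (C2.tau (gt w t φ e) (w e) y)) (e x)).trace.re := by
  have h := hb.at'
  have hg := hφ.isKahler hw
  have hMM : M ≤ (1 + t) * M := by nlinarith
  have hK : ∀ᶠ y in 𝓝 (e x), ∀ i j k,
      dz k (fun y => gt w t φ e y i j) y = dz i (fun y => gt w t φ e y k j) y := by
    filter_upwards [h.nhds_target] with y hy i j k
    have := hg.closed e (e.symm y) (At.of_target h.1 hy) i j k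
    rwa [e.right_inv hy] at this
  refine C2.chernLu_ineq (C2.mc_of_smooth hg.toIsHermitian h 2)
    (C2.mc_of_smooth hw.toIsHermitian h 2) (C2.eventually_posDef hφ.pos h)
    (C2.eventually_posDef hw.posDef h) hK (by positivity) (hφ.ric h)
    (fun k l i j => (hb.rm k l i j).trans hMM) (fun i j => ?_)
    (fun i j => (hb.met i j).trans hMM) (hb.inv.trans hMM)
  rw [Matrix.neg_apply, norm_neg, Matrix.smul_apply, smul_eq_mul, norm_mul, Complex.norm_real,
    Real.norm_of_nonneg ht]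
  have := hb.met i j
  nlinarith [norm_nonneg (w e (e x) i j)]

/-- **The barrier.** -/
theorem barrier [CompactSpace X] (hw : IsKahler w) {t1 b C0 C1 : ℝ} (hb : 0 < b) :
    ∃ C' : ℝ, 0 < C' ∧ ∀ t : ℝ, 0 < t → t ≤ t1 → ∀ φ : Chart n X → Cm n → ℝ, IsKE w t φ →
      ∀ ψ : X → ℝ, UpperSemicontinuous ψ → (∀ x, -C0 ≤ ψ x) → (∀ x, ψ x ≤ C1) →
      Visc (fun e z => gt w t φ e z - (b : ℂ) • w e z) ψ →
      ∀ e x, At e x → ((C' : ℂ) • gt w t φ e (e x) - w e (e x)).PosSemidef := by
  rcases Nat.eq_zero_or_pos n with hn | hn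
  · subst hn
    refine ⟨1, one_pos, fun t _ _ φ _ ψ _ _ _ _ e x _ => ?_⟩
    rw [Subsingleton.elim ((((1 : ℝ) : ℂ) • gt w t φ e (e x) - w e (e x))) 0]
    exact Matrix.PosSemidef.zero
  have : NeZero n := ⟨hn.ne'⟩
  obtain ⟨M, hM, hB⟩ := exists_Bd hw
  set M1 : ℝ := (1 + |t1|) * M with hM1
  have hM1nn : 0 ≤ M1 := by positivity
  set A0 : ℝ := n ^ 4 * M1 ^ 3 * (1 + M1) with hA0
  have hA0nn : 0 ≤ A0 := by positivity
  set A : ℝ := (A0 + 1) / b with hA
  have hApos : 0 < A := by positivity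
  have hAb : A * b = A0 + 1 := by rw [hA]; field_simp
  have hD : 0 ≤ max (C0 + C1) 0 := le_max_right _ _
  refine ⟨(1 + A * n) * Real.exp (A * max (C0 + C1) 0), by positivity, ?_⟩
  intro t ht ht1 φ hφ ψ husc hlow hup hvisc e x hx
  have hg := hφ.isKahler hw
  have hgH := hg.toIsHermitian
  have hH := hw.toIsHermitian
  set H : X → ℝ := fun y => Real.log (trX (gt w t φ) w y) with hHdef
  have hHe : ∀ (e : Chart n X) (x : X), At e x → (fun z => H (e.symm z)) =ᶠ[𝓝 (e x)]
      fun z => Real.log (C2.tau (gt w t φ e) (w e) z) := by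
    intro e x h
    filter_upwards [trX_symm_eventually hgH hH h] with z hz
    rw [hHdef]
    simp only [hz]
  have hlogC : ∀ (e : Chart n X) (x : X), At e x →
      ContDiffAt ℝ 2 (fun z => Real.log (C2.tau (gt w t φ e) (w e) z)) (e x) := fun e x h =>
    (contDiffAt_tau hgH hH h 2).log
      (C2.trace_re_pos (hgH.posDef e x h) (hH.posDef e x h)).ne'
  have hHC2 : N.C2Fn (n := n) H := fun e x h =>
    (hlogC e x h).congr_of_eventuallyEq (hHe e x h)
  have hΦusc : UpperSemicontinuous fun y => H y + A * ψ y := by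
    refine hHC2.continuous.upperSemicontinuous.add ?_
    have : (fun y => A * ψ y) = (fun s => A * s) ∘ ψ := rfl
    rw [this]
    exact (Continuous.comp_upperSemicontinuous (by fun_prop) husc
      (fun a b hab => mul_le_mul_of_nonneg_left hab hApos.le))
  obtain ⟨x0, -, hx0⟩ := UpperSemicontinuousOn.exists_isMaxOn ⟨x, Set.mem_univ x⟩ isCompact_univ
    (hΦusc.upperSemicontinuousOn _)
  have hmax : ∀ y, H y + A * ψ y ≤ H x0 + A * ψ x0 := fun y => hx0 (Set.mem_univ y)
  obtain ⟨c, hbd⟩ := hB x0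
  have hAt := hbd.at'
  set q : Cm n → ℝ := fun z => ψ x0 + A⁻¹ * H x0 - A⁻¹ * Real.log (C2.tau (gt w t φ c) (w c) z)
    with hq
  have hqC : ContDiffAt ℝ 2 q (c x0) := contDiffAt_const.sub (contDiffAt_const.mul (hlogC c x0 hAt))
  have hHx0 : H x0 = Real.log (C2.tau (gt w t φ c) (w c) (c x0)) := by
    show Real.log _ = _
    rw [trX_eq hgH hH hAt]
  have hv := hvisc c x0 hAt q hqC ?_ ?_
  rotate_left
  · filter_upwards [hHe c x0 hAt] with z hz
    have h1 := hmax (c.symm z)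
    simp only [hz] at h1
    have h2 : A⁻¹ * (Real.log (C2.tau (gt w t φ c) (w c) z) + A * ψ (c.symm z)) ≤
        A⁻¹ * (H x0 + A * ψ x0) := mul_le_mul_of_nonneg_left h1 (by positivity)
    have h3 : A⁻¹ * A = 1 := inv_mul_cancel₀ hApos.ne'
    rw [hq]
    simp only
    have h4 : A⁻¹ * (Real.log (C2.tau (gt w t φ c) (w c) z) + A * ψ (c.symm z)) =
        A⁻¹ * Real.log (C2.tau (gt w t φ c) (w c) z) + (A⁻¹ * A) * ψ (c.symm z) := by ring
    have h5 : A⁻¹ * (H x0 + A * ψ x0) = A⁻¹ * H x0 + (A⁻¹ * A) * ψ x0 := by ring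
    rw [h4, h5, h3] at h2
    linarith
  · rw [hq]
    simp only [← hHx0]
    ring
  have hcH : cHess q (c x0) =
      -(((A⁻¹ : ℝ) : ℂ) • cHess (fun z => Real.log (C2.tau (gt w t φ c) (w c) z)) (c x0)) := by
    rw [hq, N.cHess_sub' contDiffAt_const (contDiffAt_const.mul (hlogC c x0 hAt)), N.cHess_const,
      cHess_const_mul _ (hlogC c x0 hAt), zero_sub]
  rw [hcH] at hv
  have hGp := hφ.pos c x0 hAt
  have hWp := hH.posDef c x0 hAt
  set P := (gt w t φ c (c x0))⁻¹ with hP
  have hPp : P.PosSemidef := hGp.inv.posSemidef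
  have h2 := C2.trace_mul_nonneg hPp hv
  set τ := C2.tau (gt w t φ c) (w c) (c x0) with hτ
  have hτpos : 0 < τ := C2.trace_re_pos hGp hWp
  have h3 := ke_ineq hw hφ hM ht.le hbd
  rw [← hτ, ← hP] at h3
  have hmono : (n:ℝ) ^ 4 * ((1 + t) * M) ^ 3 * (1 + (1 + t) * M) ≤ A0 := by
    have h4 : (1 + t) * M ≤ M1 := by
      rw [hM1]
      exact mul_le_mul_of_nonneg_right (by linarith [le_abs_self t1]) hM
    have h5 : 0 ≤ (1 + t) * M := by positivity
    rw [hA0]
    gcongr
  have h6 : (P * (-(((A⁻¹ : ℝ) : ℂ) • cHess (fun z => Real.log (C2.tau (gt w t φ c) (w c) z))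
      (c x0)) + (gt w t φ c (c x0) - (b : ℂ) • w c (c x0)))).trace.re =
      -(A⁻¹ * (P * cHess (fun z => Real.log (C2.tau (gt w t φ c) (w c) z)) (c x0)).trace.re) +
        (n - b * τ) := by
    rw [Matrix.mul_add, Matrix.mul_sub, Matrix.trace_add, Matrix.trace_sub, Matrix.mul_neg,
      Matrix.trace_neg, Matrix.mul_smul, Matrix.mul_smul, Matrix.trace_smul, Matrix.trace_smul,
      Matrix.nonsing_inv_mul _ (isUnit_iff_ne_zero.2 (C2.posDef_det_ne_zero hGp)),
      Matrix.trace_one]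
    simp only [smul_eq_mul, Complex.add_re, Complex.neg_re, Complex.sub_re, Complex.re_ofReal_mul,
      Fintype.card_fin, Complex.natCast_re]
    rfl
  rw [Complex.le_def] at h2
  have h7 := h2.1
  rw [h6, Complex.zero_re] at h7
  have h8 : -1 - A0 * τ ≤
      (P * cHess (fun z => Real.log (C2.tau (gt w t φ c) (w c) z)) (c x0)).trace.re := by
    have := mul_le_mul_of_nonneg_right hmono hτpos.le
    linarith
  have h9 : A * (A⁻¹ * (P * cHess (fun z => Real.log (C2.tau (gt w t φ c) (w c) z))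
      (c x0)).trace.re) =
      (P * cHess (fun z => Real.log (C2.tau (gt w t φ c) (w c) z)) (c x0)).trace.re := by
    rw [← mul_assoc, mul_inv_cancel₀ hApos.ne', one_mul]
  have h10 : 0 ≤ A * (-(A⁻¹ * (P * cHess (fun z => Real.log (C2.tau (gt w t φ c) (w c) z))
      (c x0)).trace.re) + (n - b * τ)) := mul_nonneg hApos.le h7
  have h11 : τ ≤ 1 + A * n := by
    have : A * (-(A⁻¹ * (P * cHess (fun z => Real.log (C2.tau (gt w t φ c) (w c) z))
      (c x0)).trace.re) + (n - b * τ)) = -(A * (A⁻¹ * (P * cHess (fun z =>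
        Real.log (C2.tau (gt w t φ c) (w c) z)) (c x0)).trace.re)) + (A * n - (A * b) * τ) := by
      ring
    rw [this, h9, hAb] at h10
    linarith
  have hn0 : (0 : ℝ) ≤ n := Nat.cast_nonneg n
  have h12 : H x ≤ Real.log (1 + A * n) + A * max (C0 + C1) 0 := by
    have a1 := hmax x
    have a2 : H x0 ≤ Real.log (1 + A * n) := by
      rw [hHx0]
      exact Real.log_le_log hτpos h11
    have a3 := hlow x
    have a4 := hup x0
    have a5 : A * (ψ x0 - ψ x) ≤ A * max (C0 + C1) 0 :=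
      mul_le_mul_of_nonneg_left ((by linarith : ψ x0 - ψ x ≤ C0 + C1).trans (le_max_left _ _))
        hApos.le
    linarith
  have h13 : trX (gt w t φ) w x ≤ (1 + A * n) * Real.exp (A * max (C0 + C1) 0) := by
    have := Real.exp_le_exp.2 h12
    rwa [Real.exp_log (trX_pos hgH hH x), Real.exp_add, Real.exp_log (by positivity)] at this
  have h14 : (((trX (gt w t φ) w x : ℝ) : ℂ) • gt w t φ e (e x) - w e (e x)).PosSemidef := by
    rw [trX_eq hgH hH hx, C2.tau, C2.trace_re_eq (hφ.pos e x hx) (hH.posDef e x hx)]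
    exact C2.trace_smul_sub_posSemidef (hφ.pos e x hx) (hH.posDef e x hx).posSemidef
  have h15 := h14.add (posSemidef_ofReal_smul (hφ.pos e x hx).posSemidef (sub_nonneg.2 h13))
  have h16 : ((trX (gt w t φ) w x : ℝ) : ℂ) • gt w t φ e (e x) - w e (e x) +
      (((1 + A * n) * Real.exp (A * max (C0 + C1) 0) - trX (gt w t φ) w x : ℝ) : ℂ) •
        gt w t φ e (e x) = (((1 + A * n) * Real.exp (A * max (C0 + C1) 0) : ℝ) : ℂ) •
        gt w t φ e (e x) - w e (e x) := by
    rw [Complex.ofReal_sub, sub_smul]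
    abel
  rwa [h16] at h15

end Vale.Agent.P272.S2B
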