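import Vale.Agent.P272.S2B.Threshold

/-!
# P272, stage 2: bounds for the Ricci form and the upper bound for the potentials
-/

open scoped Manifold ContDiff ComplexOrder Topology Matrix
open Complex Set Filter MeasureTheory Metric

noncomputable section

namespace Vale.Agent.P272.S2B

open Vale.Agent.P272.K Vale.Agent.P272.K.C2

variable {n : ℕ}

theorem star_dot_re_le {A : Matrix (Fin n) (Fin n) ℂ} {M : ℝ} (hA : ∀ i j, ‖A i j‖ ≤ M)
    (x : Cm n) : (star x ⬝ᵥ A.mulVec x).re ≤ n * M * (star x ⬝ᵥ x).re := by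
  have h0 : (star x ⬝ᵥ x).re = ∑ i, ‖x i‖ ^ 2 := by
    simp only [dotProduct, Complex.re_sum, Pi.star_apply, RCLike.star_def, Complex.conj_mul']
    refine Finset.sum_congr rfl fun i _ => ?_
    norm_cast
  rw [h0]
  have hM : ∀ i j : Fin n, 0 ≤ M := fun i j => (norm_nonneg _).trans (hA i j)
  calc (star x ⬝ᵥ A.mulVec x).re ≤ ‖star x ⬝ᵥ A.mulVec x‖ := Complex.re_le_norm _
    _ ≤ ∑ i, ∑ j, ‖x i‖ * (M * ‖x j‖) := by
        simp only [dotProduct, Matrix.mulVec]
        refine (norm_sum_le _ _).trans (Finset.sum_le_sum fun i _ => ?_)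
        rw [norm_mul, ← Finset.mul_sum]
        refine mul_le_mul (by simp) ((norm_sum_le _ _).trans (Finset.sum_le_sum fun j _ => ?_))
          (norm_nonneg _) (norm_nonneg _)
        rw [norm_mul]
        exact mul_le_mul_of_nonneg_right (hA i j) (norm_nonneg _)
    _ ≤ ∑ i, ∑ j, M * ((‖x i‖ ^ 2 + ‖x j‖ ^ 2) / 2) := by
        refine Finset.sum_le_sum fun i _ => Finset.sum_le_sum fun j _ => ?_
        have h1 : ‖x i‖ * ‖x j‖ ≤ (‖x i‖ ^ 2 + ‖x j‖ ^ 2) / 2 := by
          nlinarith [sq_nonneg (‖x i‖ - ‖x j‖)]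
        calc ‖x i‖ * (M * ‖x j‖) = M * (‖x i‖ * ‖x j‖) := by ring
          _ ≤ _ := mul_le_mul_of_nonneg_left h1 (hM i j)
    _ = n * M * ∑ i, ‖x i‖ ^ 2 := by
        simp only [← Finset.mul_sum, ← Finset.sum_div, Finset.sum_add_distrib,
          Finset.sum_const, Finset.card_univ, Fintype.card_fin, nsmul_eq_mul]
        ring

theorem smul_sub_posSemidef_of_entries {H A : Matrix (Fin n) (Fin n) ℂ} (hH : H.PosDef)
    (hAh : A.IsHermitian) {M : ℝ} (hM : 0 ≤ M) (hA : ∀ i j, ‖A i j‖ ≤ M)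
    (hHi : (H⁻¹).trace.re ≤ M) : (((n * M ^ 2 : ℝ) : ℂ) • H - A).PosSemidef := by
  refine Matrix.PosSemidef.of_dotProduct_mulVec_nonneg ?_ fun x => ?_
  · refine Matrix.IsHermitian.sub ?_ hAh
    have h1 : ((n * M ^ 2 : ℝ) : ℂ) • H = (n * M ^ 2 : ℝ) • H := by ext i j; simp
    rw [h1]
    exact hH.isHermitian.smul (by simp [IsSelfAdjoint])
  have h1 := trace_smul_sub_posSemidef hH (Matrix.PosSemidef.one (n := Fin n) (R := ℂ))
  rw [Matrix.mul_one] at h1
  have h3 : (((H⁻¹).trace.re : ℝ) : ℂ) = (H⁻¹).trace := by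
    have := hH.inv.posSemidef.trace_nonneg
    rw [Complex.le_def] at this
    apply Complex.ext
    · simp
    · simpa using this.2
  rw [← h3] at h1
  have h2 := h1.re_dotProduct_nonneg x
  have h4 := hH.posSemidef.re_dotProduct_nonneg x
  simp only [Matrix.sub_mulVec, Matrix.smul_mulVec, Matrix.one_mulVec, dotProduct_sub,
    dotProduct_smul, smul_eq_mul, RCLike.re_to_complex, Complex.sub_re,
    Complex.re_ofReal_mul] at h2 h4 ⊢
  have h5 := star_dot_re_le hA x
  have h6 : 0 ≤ (star x ⬝ᵥ x).re := by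
    have h0 : (star x ⬝ᵥ x).re = ∑ i, ‖x i‖ ^ 2 := by
      simp only [dotProduct, Complex.re_sum, Pi.star_apply, RCLike.star_def, Complex.conj_mul']
      refine Finset.sum_congr rfl fun i _ => ?_
      norm_cast
    rw [h0]; positivity
  have hre : 0 ≤ n * M ^ 2 * (star x ⬝ᵥ H.mulVec x).re - (star x ⬝ᵥ A.mulVec x).re := by
    have h7 : (star x ⬝ᵥ x).re ≤ M * (star x ⬝ᵥ H.mulVec x).re := by nlinarith
    have h8 : (n:ℝ) * M * (star x ⬝ᵥ x).re ≤ n * M * (M * (star x ⬝ᵥ H.mulVec x).re) :=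
      mul_le_mul_of_nonneg_left h7 (by positivity)
    nlinarith
  rw [Complex.le_def]
  refine ⟨?_, ?_⟩
  · rw [Complex.sub_re, Complex.re_ofReal_mul, Complex.zero_re]
    exact hre
  · have i1 := hH.isHermitian.im_star_dotProduct_mulVec_self x
    have i2 := hAh.im_star_dotProduct_mulVec_self x
    simp only [RCLike.im_to_complex] at i1 i2
    rw [Complex.sub_im, Complex.im_ofReal_mul, i1, i2]
    simp

variable {X : Type} [TopologicalSpace X] [ChartedSpace (Cm n) X]
variable {w : Chart n X → Cm n → Matrix (Fin n) (Fin n) ℂ} {φ : Chart n X → Cm n → ℝ} {t : ℝ}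

theorem smoothFn_zero : SmoothFn (n := n) (fun _ : X => (0 : ℝ)) := fun _ _ _ => contDiffAt_const

/-- uniform bounds -/
theorem exists_Bd [CompactSpace X] (hw : IsKahler w) : ∃ M : ℝ, 0 ≤ M ∧ ∀ x, ∃ e : Chart n X,
    Bd w (fun _ => 0) M e x := by
  rcases Nat.eq_zero_or_pos n with hn | hn
  · subst hn
    refine ⟨1, zero_le_one, fun x => ⟨chartAt (Cm 0) x, ⟨at_chartAt x, fun k => k.elim0,
      fun _ _ _ i => i.elim0, fun i => i.elim0, ?_⟩⟩⟩
    simp [Matrix.trace]
  obtain ⟨A, hA, hb⟩ := exists_uniform_bd hw (smoothFn_zero (n := n) (X := X))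
  refine ⟨1 + A, by positivity, fun x => ?_⟩
  obtain ⟨e, M, hM, hMA, hB⟩ := hb x
  refine ⟨e, hB.mono ?_⟩
  by_contra hlt
  push Not at hlt
  have h1 : 1 ≤ M := by linarith
  have hn1 : (1:ℝ) ≤ n := by exact_mod_cast hn
  have h2 : (1:ℝ) ≤ (n:ℝ) ^ 4 := one_le_pow₀ hn1
  have h3 : (1:ℝ) ≤ M ^ 3 := one_le_pow₀ h1
  have h4 : (1:ℝ) ≤ (n:ℝ) ^ 4 * M ^ 3 := one_le_mul_of_one_le_of_one_le h2 h3
  have h5 : 1 * (1 + M) ≤ (n:ℝ) ^ 4 * M ^ 3 * (1 + M) :=
    mul_le_mul_of_nonneg_right h4 (by positivity)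
  linarith

theorem posSemidef_of_form {b : Chart n X → Cm n → Matrix (Fin n) (Fin n) ℂ} (hb : IsForm b)
    {e e' : Chart n X} {x : X} (h : At e x) (h' : At e' x) (hp : (b e' (e' x)).PosSemidef) :
    (b e (e x)).PosSemidef := by
  rw [hb e e' x h h']
  have h1 : (jacM e e' x).transpose = ((jacM e e' x).map (starRingEnd ℂ))ᴴ := by
    ext i j
    simp [Matrix.conjTranspose_apply]
  rw [h1]
  exact hp.conjTranspose_mul_mul_same _

theorem two_le_infty : (2 : WithTop ℕ∞) ≤ ∞ := by exact WithTop.coe_le_coe.2 le_top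

section
variable [IsManifold 𝓘(ℂ, Cm n) ω X]

/-- the Ricci form is bounded by a multiple of the metric -/
theorem exists_ric_bound [CompactSpace X] (hw : IsKahler w) : ∃ K : ℝ, 0 ≤ K ∧ ∀ e x, At e x →
    ((K : ℂ) • w e (e x) - cHess (fun z => Real.log (w e z).det.re) (e x)).PosSemidef ∧
    ((K : ℂ) • w e (e x) + cHess (fun z => Real.log (w e z).det.re) (e x)).PosSemidef := by
  obtain ⟨M, hM, hB⟩ := exists_Bd hw
  have hcan := isCanonical_log_det hw.toIsHermitian
  have hform : IsForm fun (e : Chart n X) z => cHess (fun y => Real.log (w e y).det.re) z :=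
    isForm_canonical (fun e x hx => (hcan.smooth e x hx).of_le two_le_infty) hcan.change
  refine ⟨n * (2 * M) ^ 2, by positivity, fun e x hx => ?_⟩
  obtain ⟨e', hb⟩ := hB x
  have h' := hb.at'
  have hent : ∀ i j, ‖cHess (fun z => Real.log (w e' z).det.re) (e' x) i j‖ ≤ 2 * M := by
    intro i j
    have h1 := hb.th 0 le_rfl zero_le_one i j
    have h2 := hb.met i j
    have h3 : Th w (fun _ => 0) 0 e' (e' x) i j =
        cHess (fun z => Real.log (w e' z).det.re) (e' x) i j - w e' (e' x) i j := by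
      rw [Th, Matrix.add_apply, Matrix.sub_apply, Matrix.smul_apply]
      simp
    rw [h3] at h1
    have h4 := norm_add_le (cHess (fun z => Real.log (w e' z).det.re) (e' x) i j - w e' (e' x) i j)
      (w e' (e' x) i j)
    rw [sub_add_cancel] at h4
    linarith
  have hherm : (cHess (fun z => Real.log (w e' z).det.re) (e' x)).IsHermitian :=
    C2.cHess_isHermitian ((hcan.smooth e' x h').of_le two_le_infty)
  have hinv : ((w e' (e' x))⁻¹).trace.re ≤ 2 * M := by linarith [hb.inv]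
  have a1 := smul_sub_posSemidef_of_entries (hw.posDef e' x h') hherm (by positivity) hent hinv
  have a2 := smul_sub_posSemidef_of_entries (hw.posDef e' x h') hherm.neg
    (by positivity) (M := 2 * M) (fun i j => by simpa using hent i j) hinv
  rw [sub_neg_eq_add] at a2
  have f1 : IsForm fun (e : Chart n X) z => ((n * (2 * M) ^ 2 : ℝ) : ℂ) • w e z +
      (-1 : ℂ) • cHess (fun y => Real.log (w e y).det.re) z :=
    (IsForm.smul _ hw.toIsHermitian.isForm).add (IsForm.smul _ hform)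
  have f2 : IsForm fun (e : Chart n X) z => ((n * (2 * M) ^ 2 : ℝ) : ℂ) • w e z +
      cHess (fun y => Real.log (w e y).det.re) z :=
    (IsForm.smul _ hw.toIsHermitian.isForm).add hform
  refine ⟨?_, posSemidef_of_form f2 hx h' a2⟩
  have := posSemidef_of_form f1 hx h' (by simpa [sub_eq_add_neg] using a1)
  simpa [sub_eq_add_neg] using this

/-- `K_X + a[w]` is nef for large `a` -/
theorem exists_nef [CompactSpace X] (hw : IsKahler w) : ∃ a : ℝ, 0 ≤ a ∧ NefCanonical w a := by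
  obtain ⟨K, hK, hb⟩ := exists_ric_bound hw
  refine ⟨K, hK, fun ε hε => ⟨_, isCanonical_log_det hw.toIsHermitian, fun e x hx => ?_⟩⟩
  have h1 := (hb e x hx).2.add (posSemidef_ofReal_smul (hw.posDef e x hx).posSemidef hε.le)
  have h2 : (K : ℂ) • w e (e x) + cHess (fun z => Real.log (w e z).det.re) (e x) +
      (ε : ℂ) • w e (e x) = cHess (fun z => Real.log (w e z).det.re) (e x) +
        ((K + ε : ℝ) : ℂ) • w e (e x) := by
    push_cast
    rw [add_smul]
    abel
  rwa [h2] at h1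

/-- **Upper bound for the potentials** `u_t = φ - log det w`. -/
theorem ke_upper [CompactSpace X] (hw : IsKahler w) {t1 : ℝ} : ∃ C : ℝ, 0 ≤ C ∧
    ∀ t : ℝ, 0 < t → t ≤ t1 → ∀ φ : Chart n X → Cm n → ℝ, IsKE w t φ → ∀ e x, At e x →
      φ e (e x) ≤ C + Real.log (w e (e x)).det.re := by
  obtain ⟨K, hK, hb⟩ := exists_ric_bound hw
  refine ⟨n * Real.log (|t1| + K + 1), by
    have : 0 ≤ Real.log (|t1| + K + 1) := Real.log_nonneg (by linarith [abs_nonneg t1])
    positivity, fun t ht ht1 φ hφ e x hx => ?_⟩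
  have hH := hw.toIsHermitian
  have hsm := smoothFn_ricPot hH hφ.can
  have hC2 : N.C2Fn (n := n) (ricPot w φ) := hsm.c2Fn
  obtain ⟨x0, -, hx0⟩ := isCompact_univ.exists_isMaxOn ⟨x, Set.mem_univ x⟩
    hC2.continuous.continuousOn
  have hmax : ∀ y, ricPot w φ y ≤ ricPot w φ x0 := fun y => hx0 (Set.mem_univ y)
  obtain ⟨c, hc⟩ : ∃ c : Chart n X, At c x0 := ⟨_, at_chartAt x0⟩
  have hloc : IsLocalMax (fun z => ricPot w φ (c.symm z)) (c x0) := by
    refine Filter.Eventually.of_forall fun z => ?_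
    simp only [c.left_inv hc.2]
    exact hmax _
  have h1 := N.neg_cHess_posSemidef (hC2 c x0 hc) hloc
  have hφ2 : ContDiffAt ℝ 2 (φ c) (c x0) := (hφ.can.smooth c x0 hc).of_le two_le_infty
  have hw2 : ContDiffAt ℝ 2 (fun z => Real.log (w c z).det.re) (c x0) :=
    ((isCanonical_log_det hH).smooth c x0 hc).of_le two_le_infty
  have h2 : cHess (fun z => ricPot w φ (c.symm z)) (c x0) =
      cHess (φ c) (c x0) - cHess (fun z => Real.log (w c z).det.re) (c x0) := by
    have h3 : (fun z => ricPot w φ (c.symm z)) =ᶠ[𝓝 (c x0)]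
        fun z => φ c z - Real.log (w c z).det.re := by
      filter_upwards [hc.nhds_target] with z hz
      rw [ricPot_eq hH hφ.can (At.of_target hc.1 hz), c.right_inv hz]
    rw [C2.cHess_congr h3, N.cHess_sub' hφ2 hw2]
  rw [h2] at h1
  have h4 : (((|t1| + K + 1 : ℝ) : ℂ) • w c (c x0) - gt w t φ c (c x0)).PosSemidef := by
    have h5 := ((hb c x0 hc).1.add h1).add
      (posSemidef_ofReal_smul (hw.posDef c x0 hc).posSemidef (c := |t1| + 1 - t)
        (by have := le_abs_self t1; linarith))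
    have h6 : (K : ℂ) • w c (c x0) - cHess (fun z => Real.log (w c z).det.re) (c x0) +
        -(cHess (φ c) (c x0) - cHess (fun z => Real.log (w c z).det.re) (c x0)) +
        ((|t1| + 1 - t : ℝ) : ℂ) • w c (c x0) =
        ((|t1| + K + 1 : ℝ) : ℂ) • w c (c x0) - gt w t φ c (c x0) := by
      rw [gt]
      push_cast
      rw [sub_smul, add_smul, add_smul, add_smul]
      abel
    rwa [h6] at h5
  have h7 := N.det_re_le (hφ.pos c x0 hc) h4
  have h8 : (((|t1| + K + 1 : ℝ) : ℂ) • w c (c x0)).det.re =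
      (|t1| + K + 1) ^ n * (w c (c x0)).det.re := by
    rw [Matrix.det_smul, Fintype.card_fin, ← Complex.ofReal_pow, Complex.re_ofReal_mul]
  have hpos : 0 < |t1| + K + 1 := by positivity
  have h9 := Real.log_le_log (C2.det_re_pos (hφ.pos c x0 hc)) h7
  rw [h8, Real.log_mul (pow_pos hpos n).ne' (hH.det_re_pos hc).ne', Real.log_pow,
    hφ.eqn c x0 hc] at h9
  have h10 := hmax x
  rw [ricPot_eq hH hφ.can hx, ricPot_eq hH hφ.can hc] at h10
  linarith

end

end Vale.Agent.P272.S2B
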