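import Vale.Agent.P272.K.Asm.Final
import Vale.Agent.P272.K.C2.Main
import Mathlib.MeasureTheory.Integral.CircleAverage
import Mathlib.Topology.Semicontinuity.Basic

/-!
# P272, stage 2: twisted Kähler-Einstein metrics, viscosity subsolutions, sub-mean value property
-/

open scoped Manifold ContDiff ComplexOrder Topology
open Complex Set Filter MeasureTheory Metric

noncomputable section

namespace Vale.Agent.P272.S2B

open Vale.Agent.P272.K

section
variable {n : ℕ} {X : Type*} [TopologicalSpace X]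

/-- the metric `i∂∂̄φ + t w` -/
def gt (w : Chart n X → Cm n → Matrix (Fin n) (Fin n) ℂ) (t : ℝ) (φ : Chart n X → Cm n → ℝ)
    (e : Chart n X) (z : Cm n) : Matrix (Fin n) (Fin n) ℂ :=
  cHess (φ e) z + (t : ℂ) • w e z

variable [ChartedSpace (Cm n) X]

/-- `φ` is a metric on `K_X` for which `g = i∂∂̄φ + t w` is a Kähler metric with
`log det g = φ` (so `Ric g = -g + t w`). -/
structure IsKE (w : Chart n X → Cm n → Matrix (Fin n) (Fin n) ℂ) (t : ℝ)
    (φ : Chart n X → Cm n → ℝ) : Prop where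
  can : IsCanonicalMetric φ
  pos : ∀ e x, At e x → (gt w t φ e (e x)).PosDef
  eqn : ∀ e x, At e x → Real.log (gt w t φ e (e x)).det.re = φ e (e x)

/-- `θ + i∂∂̄ψ ≥ 0` in the viscosity sense. -/
def Visc (θ : Chart n X → Cm n → Matrix (Fin n) (Fin n) ℂ) (ψ : X → ℝ) : Prop :=
  ∀ (e : Chart n X) (x : X), At e x → ∀ q : Cm n → ℝ, ContDiffAt ℝ 2 q (e x) →
    (∀ᶠ z in 𝓝 (e x), ψ (e.symm z) ≤ q z) → q (e x) = ψ x →
    (cHess q (e x) + θ e (e x)).PosSemidef

/-- the Hermitian form `Σ M_{ij} ξ_i ξ̄_j` -/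
def hq (M : Matrix (Fin n) (Fin n) ℂ) (ξ : Cm n) : ℝ := (ξ ⬝ᵥ M.mulVec (star ξ)).re

/-- Green's function of the unit disc with pole `0`. -/
def G0 (t : ℂ) : ℝ := 2 / Real.pi * Real.log (1 / ‖t‖)

/-- `T_θ(h)` for the affine disc `h(t) = p + tξ` -/
def TAff (θ : Cm n → Matrix (Fin n) (Fin n) ℂ) (p ξ : Cm n) : ℝ :=
  ∫ t in ball (0 : ℂ) 1, G0 t * hq (θ (p + t • ξ)) ξ

/-- The sub-mean value property over small affine discs: `ψ(x)` is at most the mean over the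
circle of any continuous majorant of `ψ` plus `T_θ` of the disc. -/
def SubMean (θ : Chart n X → Cm n → Matrix (Fin n) (Fin n) ℂ) (ψ : X → ℝ) : Prop :=
  ∀ (e : Chart n X) (x : X), At e x → ∃ r : ℝ, 0 < r ∧ ∀ ξ : Cm n, ‖ξ‖ < r →
    ∀ κ : ℂ → ℝ, ContinuousOn κ (sphere 0 1) →
      (∀ ζ ∈ sphere (0 : ℂ) 1, ψ (e.symm (e x + ζ • ξ)) < κ ζ) →
      ψ x ≤ Real.circleAverage κ 0 1 + TAff (θ e) (e x) ξ

end

end Vale.Agent.P272.S2B
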