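import Vale.Agent.P272.S2B.Defs

/-!
# P272, stage 2: existence of the twisted Kähler-Einstein metrics (Aubin-Yau)
-/

open scoped Manifold ContDiff ComplexOrder Topology
open Complex Set Filter MeasureTheory Metric

noncomputable section

namespace Vale.Agent.P272.S2B

open Vale.Agent.P272.K

variable {n : ℕ} {X : Type} [TopologicalSpace X] [ChartedSpace (Cm n) X]
variable {w : Chart n X → Cm n → Matrix (Fin n) (Fin n) ℂ} {φ : Chart n X → Cm n → ℝ} {t : ℝ}

theorem IsKE.isKahler [IsManifold 𝓘(ℂ, Cm n) ω X] (hw : IsKahler w) (h : IsKE w t φ) :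
    IsKahler (gt w t φ) :=
  isKahler_twist h.can hw t h.pos

theorem IsKE.log_det (h : IsKE w t φ) {e : Chart n X} {x : X} (hx : At e x) :
    (fun z => Real.log (gt w t φ e z).det.re) =ᶠ[𝓝 (e x)] φ e := by
  filter_upwards [hx.nhds_target] with z hz
  have h3 := h.eqn e _ (At.of_target hx.1 hz)
  rwa [e.right_inv hz] at h3

/-- `Ric g = -g + t w` -/
theorem IsKE.ric (h : IsKE w t φ) {e : Chart n X} {x : X} (hx : At e x) :
    cHess (fun z => Real.log (gt w t φ e z).det.re) (e x) =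
      gt w t φ e (e x) + -((t : ℂ) • w e (e x)) := by
  rw [cHess_congr (h.log_det hx), gt]
  abel

theorem exists_ke_of [IsManifold 𝓘(ℂ, Cm n) ω X] (hAY : AubinYau n X) (hw : IsKahler w) {a : ℝ}
    (hnef : NefCanonical w a) {ε : ℝ} (hε : 0 < ε) : ∃ φ, IsKE w (a + ε) φ := by
  obtain ⟨φ0, hφ0, hpsd⟩ := hnef (ε / 2) (half_pos hε)
  have hpos : ∀ e x, At e x → (cHess (φ0 e) (e x) + ((a + ε : ℝ) : ℂ) • w e (e x)).PosDef := by
    intro e x hx
    have h1 : cHess (φ0 e) (e x) + ((a + ε : ℝ) : ℂ) • w e (e x) =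
        (cHess (φ0 e) (e x) + ((a + ε / 2 : ℝ) : ℂ) • w e (e x)) +
          ((ε / 2 : ℝ) : ℂ) • w e (e x) := by
      rw [add_assoc, ← add_smul]
      congr 2
      push_cast; ring
    rw [h1]
    exact Matrix.PosDef.posSemidef_add (hpsd e x hx)
      (posDef_ofReal_smul (hw.posDef e x hx) (half_pos hε))
  set χ : Chart n X → Cm n → Matrix (Fin n) (Fin n) ℂ :=
    fun e z => cHess (φ0 e) z + ((a + ε : ℝ) : ℂ) • w e z with hχdef
  have hχ : IsKahler χ := isKahler_twist hφ0 hw (a + ε) hpos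
  obtain ⟨u, hu, hupos, heq⟩ := hAY χ hχ (ricPot χ φ0) (smoothFn_ricPot hχ.toIsHermitian hφ0)
  have hsm : ∀ e x, At e x → ContDiffAt ℝ ∞ (fun z => φ0 e z + u (e.symm z)) (e x) :=
    fun e x hx => (hφ0.smooth e x hx).add (hu e x hx)
  have hcan : IsCanonicalMetric fun e z => φ0 e z + u (e.symm z) := by
    refine ⟨hsm, fun e e' x hx hx' => ?_⟩
    simp only [hx.left_inv, hx'.left_inv]
    rw [hφ0.change e e' x hx hx']; ring
  have htwo : ∀ {f : Cm n → ℝ} {z}, ContDiffAt ℝ ∞ f z → ContDiffAt ℝ 2 f z :=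
    fun h => h.of_le (by exact WithTop.coe_le_coe.2 le_top)
  have hcH : ∀ e x, At e x → cHess (fun z => φ0 e z + u (e.symm z)) (e x) +
      ((a + ε : ℝ) : ℂ) • w e (e x) = addH χ u e (e x) := by
    intro e x hx
    rw [cHess_add (htwo (hφ0.smooth e x hx)) (htwo (hu e x hx))]
    simp only [addH, hχdef]
    abel
  refine ⟨fun e z => φ0 e z + u (e.symm z), hcan, fun e x hx => ?_, fun e x hx => ?_⟩
  · show (cHess (fun z => φ0 e z + u (e.symm z)) (e x) + ((a + ε : ℝ) : ℂ) • w e (e x)).PosDef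
    rw [hcH e x hx]; exact hupos e x hx
  · show Real.log (cHess (fun z => φ0 e z + u (e.symm z)) (e x) +
      ((a + ε : ℝ) : ℂ) • w e (e x)).det.re = φ0 e (e x) + u (e.symm (e x))
    have h3 := heq e _ hx
    have h4 := ricPot_eq hχ.toIsHermitian hφ0 hx
    rw [hcH e x hx, hx.left_inv]
    rw [h4] at h3
    linarith

theorem exists_ke [T2Space X] [CompactSpace X] [IsManifold 𝓘(ℂ, Cm n) ω X] (hw : IsKahler w)
    {a : ℝ} (hnef : NefCanonical w a) {ε : ℝ} (hε : 0 < ε) : ∃ φ, IsKE w (a + ε) φ :=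
  exists_ke_of (aubinYau n X) hw hnef hε

end Vale.Agent.P272.S2B
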