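import Vale.Agent.P272.S2B.Barrier

/-!
# P272, stage 2: nefness from viscosity subsolutions
-/

open scoped Manifold ContDiff ComplexOrder Topology Matrix
open Complex Set Filter MeasureTheory Metric

noncomputable section

namespace Vale.Agent.P272.S2B

open Vale.Agent.P272.K

variable {n : ℕ} {X : Type} [TopologicalSpace X] [ChartedSpace (Cm n) X]
variable {w : Chart n X → Cm n → Matrix (Fin n) (Fin n) ℂ}

/-- What the discs have to provide at a nef threshold `t0 > 0`: uniformly bounded upper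
semicontinuous `ψ` with `g_t - b w + i∂∂̄ψ ≥ 0` (viscosity sense). -/
def ViscAt (w : Chart n X → Cm n → Matrix (Fin n) (Fin n) ℂ) (t0 : ℝ) : Prop :=
  ∃ b C0 C1 : ℝ, 0 < b ∧ ∀ t : ℝ, t0 < t → t ≤ t0 + 1 → ∀ φ : Chart n X → Cm n → ℝ,
    IsKE w t φ → ∃ ψ : X → ℝ, UpperSemicontinuous ψ ∧ (∀ x, -C0 ≤ ψ x) ∧ (∀ x, ψ x ≤ C1) ∧
      Visc (fun e z => gt w t φ e z - (b : ℂ) • w e z) ψ

variable [IsManifold 𝓘(ℂ, Cm n) ω X] [T2Space X] [CompactSpace X]

/-- `K_X + t0 [w]` nef, `t0 > 0`, and the viscosity subsolutions: then `K_X + s[w]` is nef for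
some `s < t0`. -/
theorem nef_improve (hw : IsKahler w) {t0 : ℝ} (ht0 : 0 < t0) (hnef : NefCanonical w t0)
    (hv : ViscAt w t0) : ∃ s : ℝ, 0 ≤ s ∧ s < t0 ∧ NefCanonical w s := by
  obtain ⟨b, C0, C1, hb, hψ⟩ := hv
  obtain ⟨C', hC', hbar⟩ := barrier hw (t1 := t0 + 1) (b := b) (C0 := C0) (C1 := C1) hb
  have hCi : 0 < C'⁻¹ := inv_pos.2 hC'
  refine ⟨max (t0 - C'⁻¹) 0, le_max_right _ _, max_lt (by linarith) ht0, ?_⟩
  intro ε hε
  set δ : ℝ := min ε 1 with hδ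
  have hδ0 : 0 < δ := lt_min hε one_pos
  have hδε : δ ≤ ε := min_le_left _ _
  have hδ1 : δ ≤ 1 := min_le_right _ _
  obtain ⟨φ, hφ⟩ := exists_ke hw hnef hδ0
  obtain ⟨ψ, h1, h2, h3, h4⟩ := hψ (t0 + δ) (by linarith) (by linarith) φ hφ
  have key := hbar (t0 + δ) (by linarith) (by linarith) φ hφ ψ h1 h2 h3 h4
  refine ⟨φ, hφ.can, fun e x hx => ?_⟩
  have k1 := (key e x hx).smul (α := ℝ) hCi.le
  have k2 := posSemidef_ofReal_smul (hw.posDef e x hx).posSemidef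
    (c := max (t0 - C'⁻¹) 0 + ε - (t0 + δ - C'⁻¹)) (by
      have := le_max_left (t0 - C'⁻¹) 0
      linarith)
  have k3 := k1.add k2
  have k4 : (C'⁻¹ : ℝ) • ((C' : ℂ) • gt w (t0 + δ) φ e (e x) - w e (e x)) +
      ((max (t0 - C'⁻¹) 0 + ε - (t0 + δ - C'⁻¹) : ℝ) : ℂ) • w e (e x) =
      cHess (φ e) (e x) + ((max (t0 - C'⁻¹) 0 + ε : ℝ) : ℂ) • w e (e x) := by
    have e1 : (C'⁻¹ : ℝ) • ((C' : ℂ) • gt w (t0 + δ) φ e (e x) - w e (e x)) =
        gt w (t0 + δ) φ e (e x) - ((C'⁻¹ : ℝ) : ℂ) • w e (e x) := by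
      ext i j
      simp only [Matrix.smul_apply, Matrix.sub_apply, smul_eq_mul, Complex.real_smul]
      have : ((C'⁻¹ : ℝ) : ℂ) * (C' : ℂ) = 1 := by
        rw [← Complex.ofReal_mul, inv_mul_cancel₀ hC'.ne', Complex.ofReal_one]
      linear_combination (gt w (t0 + δ) φ e (e x) i j) * this
    rw [e1, gt]
    ext i j
    simp only [Matrix.smul_apply, Matrix.sub_apply, Matrix.add_apply, smul_eq_mul,
      Complex.ofReal_add, Complex.ofReal_sub]
    ring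
  rwa [k4] at k3

/-- **Nefness.** If at every nef threshold `t0 > 0` there are bounded viscosity subsolutions, then
`K_X` is nef. -/
theorem nef_of_visc (hw : IsKahler w)
    (H : ∀ t0 : ℝ, 0 < t0 → NefCanonical w t0 → ViscAt w t0) : NefCanonical w 0 := by
  set T : Set ℝ := {a | 0 ≤ a ∧ NefCanonical w a} with hT
  have hne : T.Nonempty := by
    obtain ⟨a, ha, hna⟩ := exists_nef hw
    exact ⟨a, ha, hna⟩
  have hbdd : BddBelow T := ⟨0, fun a ha => ha.1⟩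
  set t0 := sInf T with ht0
  have ht0nn : 0 ≤ t0 := le_csInf hne fun a ha => ha.1
  have hnef : NefCanonical w t0 := by
    intro ε hε
    obtain ⟨a, ha, hlt⟩ := exists_lt_of_csInf_lt hne (show sInf T < t0 + ε / 2 by
      rw [← ht0]; linarith)
    obtain ⟨φ, hφ, hp⟩ := ha.2 (ε / 2) (half_pos hε)
    refine ⟨φ, hφ, fun e x hx => ?_⟩
    have k1 := (hp e x hx).add (posSemidef_ofReal_smul (hw.posDef e x hx).posSemidef
      (c := t0 + ε - (a + ε / 2)) (by linarith))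
    have k2 : cHess (φ e) (e x) + ((a + ε / 2 : ℝ) : ℂ) • w e (e x) +
        ((t0 + ε - (a + ε / 2) : ℝ) : ℂ) • w e (e x) =
        cHess (φ e) (e x) + ((t0 + ε : ℝ) : ℂ) • w e (e x) := by
      rw [add_assoc, ← add_smul]
      congr 2
      push_cast; ring
    rwa [k2] at k1
  rcases ht0nn.eq_or_lt with h | h
  · rw [h]; exact hnef
  · obtain ⟨s, hs0, hst, hsn⟩ := nef_improve hw h hnef (H t0 h hnef)
    exact absurd (csInf_le hbdd (show s ∈ T from ⟨hs0, hsn⟩)) (not_le.2 hst)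

end Vale.Agent.P272.S2B
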