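import Vale.Agent.P272.S2B.Taylor

/-!
# P272, stage 2: the sub-mean value property over small affine discs gives the viscosity inequality
-/

open scoped Manifold ContDiff ComplexOrder Topology Matrix
open Complex Set Filter MeasureTheory Metric

noncomputable section

namespace Vale.Agent.P272.S2B

open Vale.Agent.P272.K

variable {n : ℕ}

theorem hq_add (A B : Matrix (Fin n) (Fin n) ℂ) (ξ : Cm n) : hq (A + B) ξ = hq A ξ + hq B ξ := by
  simp [hq, Matrix.add_mulVec, dotProduct_add]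

theorem hq_smul_vec (M : Matrix (Fin n) (Fin n) ℂ) (δ : ℝ) (ξ : Cm n) :
    hq M ((δ : ℂ) • ξ) = δ ^ 2 * hq M ξ := by
  unfold hq
  rw [star_smul, Matrix.mulVec_smul, smul_dotProduct, dotProduct_smul]
  have : star (δ : ℂ) = (δ : ℂ) := Complex.conj_ofReal δ
  rw [this, smul_eq_mul, smul_eq_mul, ← mul_assoc, ← Complex.ofReal_mul, Complex.re_ofReal_mul]
  ring

theorem continuous_hq (ξ : Cm n) : Continuous fun M : Matrix (Fin n) (Fin n) ℂ => hq M ξ := by
  unfold hq
  fun_prop

theorem hq_cHess {q : Cm n → ℝ} {p : Cm n} (hq2 : ContDiffAt ℝ 2 q p) (ξ : Cm n) :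
    hq (cHess q p) ξ = (fderiv ℝ (fderiv ℝ q) p ξ ξ +
      fderiv ℝ (fderiv ℝ q) p (I • ξ) (I • ξ)) / 4 := by
  have h := N.lev_quadratic (B := fderiv ℝ (fderiv ℝ q) p) (fun a b => MP.fderiv2_symm hq2 a b)
    (star ξ)
  rw [star_star] at h
  unfold hq
  rw [N.cHess_eq_lev (N.diffble2 hq2), h]
  simp

/-- the mean over the circle of the second order Taylor polynomial -/
theorem circleAverage_taylor (c : ℝ) (L : Cm n →L[ℝ] ℝ) (B : N.Bil n)
    (hB : ∀ a b, B a b = B b a) (ξ : Cm n) (C : ℝ) :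
    Real.circleAverage (fun ζ : ℂ => c + L (ζ • ξ) + (1 / 2) * B (ζ • ξ) (ζ • ξ) + C) 0 1 =
      c + (B ξ ξ + B (I • ξ) (I • ξ)) / 4 + C := by
  have hz : ∀ θ : ℝ, (circleMap 0 1 θ) • ξ = (Real.cos θ) • ξ + (Real.sin θ) • (I • ξ) := by
    intro θ
    rw [circleMap, Complex.ofReal_one, one_mul, zero_add, Complex.exp_mul_I, add_smul, mul_smul,
      ← Complex.ofReal_cos, ← Complex.ofReal_sin, Complex.coe_smul, Complex.coe_smul]
  rw [Real.circleAverage_def]
  have h1 : (fun θ : ℝ => c + L (circleMap 0 1 θ • ξ) +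
      (1 / 2) * B (circleMap 0 1 θ • ξ) (circleMap 0 1 θ • ξ) + C) = fun θ : ℝ =>
      (c + C) + L ξ * Real.cos θ + L (I • ξ) * Real.sin θ + (1 / 2 * B ξ ξ) * Real.cos θ ^ 2 +
        (1 / 2 * B (I • ξ) (I • ξ)) * Real.sin θ ^ 2 +
          B ξ (I • ξ) * (Real.sin θ * Real.cos θ) := by
    ext θ
    rw [hz θ]
    simp only [map_add, map_smul, _root_.add_apply, _root_.smul_apply, smul_eq_mul]
    rw [hB (I • ξ) ξ]
    ring
  simp only [h1]
  have i1 : ∀ f : ℝ → ℝ, Continuous f → IntervalIntegrable f volume 0 (2 * Real.pi) :=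
    fun f hf => hf.intervalIntegrable _ _
  rw [intervalIntegral.integral_add (i1 _ (by fun_prop)) (i1 _ (by fun_prop)),
    intervalIntegral.integral_add (i1 _ (by fun_prop)) (i1 _ (by fun_prop)),
    intervalIntegral.integral_add (i1 _ (by fun_prop)) (i1 _ (by fun_prop)),
    intervalIntegral.integral_add (i1 _ (by fun_prop)) (i1 _ (by fun_prop)),
    intervalIntegral.integral_add (i1 _ (by fun_prop)) (i1 _ (by fun_prop)),
    intervalIntegral.integral_const_mul, intervalIntegral.integral_const_mul,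
    intervalIntegral.integral_const_mul, intervalIntegral.integral_const_mul,
    intervalIntegral.integral_const_mul, intervalIntegral.integral_const, integral_cos,
    integral_sin, integral_cos_sq, integral_sin_sq, integral_sin_mul_cos₁]
  simp only [Real.sin_two_pi, Real.sin_zero, Real.cos_two_pi, Real.cos_zero, smul_eq_mul]
  have := Real.pi_ne_zero
  field_simp
  ring

/-- upper bound for `T_θ` of a small affine disc -/
theorem TAff_le {θ : Cm n → Matrix (Fin n) (Fin n) ℂ} {p ξ : Cm n} {δ m : ℝ}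
    (hθ : ∀ t ∈ closedBall (0 : ℂ) 1, ContinuousAt θ (p + t • ((δ : ℂ) • ξ)))
    (hm : ∀ t ∈ closedBall (0 : ℂ) 1, hq (θ (p + t • ((δ : ℂ) • ξ))) ξ ≤ m) :
    TAff θ p ((δ : ℂ) • ξ) ≤ δ ^ 2 * m := by
  have hcont : ContinuousOn (fun t : ℂ => hq (θ (p + t • ((δ : ℂ) • ξ))) ((δ : ℂ) • ξ))
      (closedBall 0 1) := by
    intro t ht
    refine ContinuousAt.continuousWithinAt ?_
    have h1 : ContinuousAt (fun t : ℂ => p + t • ((δ : ℂ) • ξ)) t := by fun_prop
    have h2 : ContinuousAt (fun t : ℂ => θ (p + t • ((δ : ℂ) • ξ))) t :=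
      ContinuousAt.comp (g := θ) (f := fun t : ℂ => p + t • ((δ : ℂ) • ξ)) (hθ t ht) h1
    exact (continuous_hq _).continuousAt.comp h2
  have hint : IntegrableOn (fun t : ℂ => G0 t * hq (θ (p + t • ((δ : ℂ) • ξ))) ((δ : ℂ) • ξ))
      (ball 0 1) := by
    obtain ⟨K, hK⟩ := (isCompact_closedBall (0 : ℂ) 1).exists_bound_of_continuousOn hcont
    refine Integrable.mul_bdd (c := K) integrableOn_G0 ?_ ?_
    · exact (hcont.mono ball_subset_closedBall).aestronglyMeasurable measurableSet_ball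
    · filter_upwards [ae_restrict_mem measurableSet_ball] with t ht
      exact hK t (ball_subset_closedBall ht)
  calc TAff θ p ((δ : ℂ) • ξ) ≤ ∫ t in ball (0 : ℂ) 1, G0 t * (δ ^ 2 * m) := by
        unfold TAff
        refine setIntegral_mono_on hint (integrableOn_G0.mul_const _) measurableSet_ball ?_
        intro t ht
        refine mul_le_mul_of_nonneg_left ?_ (G0_nonneg ht)
        rw [hq_smul_vec]
        exact mul_le_mul_of_nonneg_left (hm t (ball_subset_closedBall ht)) (sq_nonneg δ)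
    _ = δ ^ 2 * m := by rw [integral_mul_const, integral_G0, one_mul]

variable {X : Type*} [TopologicalSpace X] [ChartedSpace (Cm n) X]

/-- **The sub-mean value property over small affine discs gives the viscosity inequality.** -/
theorem visc_of_subMean {θ : Chart n X → Cm n → Matrix (Fin n) (Fin n) ℂ} {ψ : X → ℝ}
    (hc : ∀ e x, At e x → ContinuousAt (θ e) (e x)) (hh : ∀ e x, At e x → (θ e (e x)).IsHermitian)
    (h : SubMean θ ψ) : Visc θ ψ := by
  intro e x hx q hq2 hle heq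
  set p := e x with hp
  have hHerm : (cHess q p + θ e p).IsHermitian := (C2.cHess_isHermitian hq2).add (hh e x hx)
  refine Matrix.PosSemidef.of_dotProduct_mulVec_nonneg hHerm fun y => ?_
  set ξ : Cm n := star y with hξ
  have hkey : 0 ≤ hq (cHess q p) ξ + hq (θ e p) ξ := by
    refine le_of_forall_pos_le_add fun ε hε => ?_
    obtain ⟨r, hr, hsub⟩ := h e x hx
    set ε' : ℝ := ε / (‖ξ‖ ^ 2 + 1) with hε'
    have hε'0 : 0 < ε' := by positivity
    obtain ⟨r1, hr1, htay⟩ := taylor2 hq2 hε'0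
    obtain ⟨r2, hr2, hev⟩ := Metric.eventually_nhds_iff_ball.1
      ((hle.and (hq2.eventually (by simp))).and (hx.nhds_target))
    have hcθ : ∀ᶠ z in 𝓝 p, hq (θ e z) ξ < hq (θ e p) ξ + ε' := by
      have : ContinuousAt (fun z => hq (θ e z) ξ) p :=
        (continuous_hq ξ).continuousAt.comp (hc e x hx)
      exact this.eventually_lt continuousAt_const (by linarith)
    obtain ⟨r3, hr3, hev3⟩ := Metric.eventually_nhds_iff_ball.1 hcθ
    set R : ℝ := min (min r r1) (min r2 r3) with hR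
    have hR0 : 0 < R := lt_min (lt_min hr hr1) (lt_min hr2 hr3)
    set δ : ℝ := R / (2 * (‖ξ‖ + 1)) with hδ
    have hδ0 : 0 < δ := by positivity
    have hδξ : ‖(δ : ℂ) • ξ‖ < R := by
      rw [norm_smul, Complex.norm_real, Real.norm_of_nonneg hδ0.le, hδ, div_mul_eq_mul_div,
        div_lt_iff₀ (by positivity)]
      nlinarith [norm_nonneg ξ]
    have hnorm : ∀ t ∈ closedBall (0 : ℂ) 1, ‖t • ((δ : ℂ) • ξ)‖ < R := by
      intro t ht
      rw [norm_smul]
      have : ‖t‖ ≤ 1 := by simpa using ht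
      calc ‖t‖ * ‖(δ : ℂ) • ξ‖ ≤ 1 * ‖(δ : ℂ) • ξ‖ :=
            mul_le_mul_of_nonneg_right this (norm_nonneg _)
        _ < R := by rw [one_mul]; exact hδξ
    have hin2 : ∀ t ∈ closedBall (0 : ℂ) 1, p + t • ((δ : ℂ) • ξ) ∈ ball p r2 := by
      intro t ht
      simp only [mem_ball, dist_eq_norm, add_sub_cancel_left]
      exact (hnorm t ht).trans_le ((min_le_right _ _).trans (min_le_left _ _))
    have hin3 : ∀ t ∈ closedBall (0 : ℂ) 1, p + t • ((δ : ℂ) • ξ) ∈ ball p r3 := by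
      intro t ht
      simp only [mem_ball, dist_eq_norm, add_sub_cancel_left]
      exact (hnorm t ht).trans_le ((min_le_right _ _).trans (min_le_right _ _))
    -- the value of `T_θ`
    have hT : TAff (θ e) p ((δ : ℂ) • ξ) ≤ δ ^ 2 * (hq (θ e p) ξ + ε') := by
      refine TAff_le (fun t ht => ?_) fun t ht => (hev3 _ (hin3 t ht)).le
      have h1 := (hev _ (hin2 t ht)).2
      have := hc e (e.symm (p + t • ((δ : ℂ) • ξ))) (At.of_target hx.1 h1)
      rwa [e.right_inv h1] at this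
    -- the mean of the majorant
    set L := fderiv ℝ q p with hL
    set B := fderiv ℝ (fderiv ℝ q) p with hB
    have hsymm : ∀ a b, B a b = B b a := fun a b => MP.fderiv2_symm hq2 a b
    have hqc : ContinuousOn (fun ζ : ℂ => q (p + ζ • ((δ : ℂ) • ξ))) (closedBall 0 1) := by
      intro t ht
      refine ContinuousAt.continuousWithinAt ?_
      have h1 : ContinuousAt (fun t : ℂ => p + t • ((δ : ℂ) • ξ)) t := by fun_prop
      exact ContinuousAt.comp (g := q) (f := fun t : ℂ => p + t • ((δ : ℂ) • ξ))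
        (hev _ (hin2 t ht)).1.2.continuousAt h1
    have hqc' : ContinuousOn (fun ζ : ℂ => q (p + ζ • ((δ : ℂ) • ξ))) (sphere 0 1) :=
      hqc.mono sphere_subset_closedBall
    have hci : CircleIntegrable (fun ζ : ℂ => q (p + ζ • ((δ : ℂ) • ξ))) 0 1 :=
      hqc'.circleIntegrable zero_le_one
    have hstep : ∀ η : ℝ, 0 < η → ψ x ≤
        Real.circleAverage (fun ζ : ℂ => q (p + ζ • ((δ : ℂ) • ξ))) 0 1 + η +
          TAff (θ e) p ((δ : ℂ) • ξ) := by
      intro η hη
      have h1 := hsub ((δ : ℂ) • ξ) (hδξ.trans_le ((min_le_left _ _).trans (min_le_left _ _)))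
        (fun ζ => q (p + ζ • ((δ : ℂ) • ξ)) + η) (hqc'.add continuousOn_const)
        (fun ζ hζ => by
          have := (hev _ (hin2 ζ (sphere_subset_closedBall hζ))).1.1
          linarith)
      have h2 : Real.circleAverage (fun ζ : ℂ => q (p + ζ • ((δ : ℂ) • ξ)) + η) 0 1 =
          Real.circleAverage (fun ζ : ℂ => q (p + ζ • ((δ : ℂ) • ξ))) 0 1 + η := by
        rw [Real.circleAverage_fun_add hci (circleIntegrable_const _ _ _),
          Real.circleAverage_const]
      rwa [h2] at h1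
    have hψ : ψ x ≤ Real.circleAverage (fun ζ : ℂ => q (p + ζ • ((δ : ℂ) • ξ))) 0 1 +
          TAff (θ e) p ((δ : ℂ) • ξ) := by
      refine le_of_forall_pos_le_add fun η hη => ?_
      have := hstep η hη
      linarith
    have hupper : Real.circleAverage (fun ζ : ℂ => q (p + ζ • ((δ : ℂ) • ξ))) 0 1 ≤
        q p + (B ((δ : ℂ) • ξ) ((δ : ℂ) • ξ) + B (I • ((δ : ℂ) • ξ)) (I • ((δ : ℂ) • ξ))) / 4 +
          ε' * ‖(δ : ℂ) • ξ‖ ^ 2 := by
      rw [← circleAverage_taylor (q p) L B hsymm ((δ : ℂ) • ξ) (ε' * ‖(δ : ℂ) • ξ‖ ^ 2)]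
      refine Real.circleAverage_mono hci ?_ fun ζ hζ => ?_
      · refine ContinuousOn.circleIntegrable zero_le_one ?_
        refine Continuous.continuousOn ?_
        have h3 : Continuous fun ζ : ℂ => B (ζ • ((δ : ℂ) • ξ)) (ζ • ((δ : ℂ) • ξ)) := by
          have h4 : Continuous fun ζ : ℂ => ζ • ((δ : ℂ) • ξ) := by fun_prop
          exact (B.continuous.comp h4).clm_apply h4
        have h5 : Continuous fun ζ : ℂ => L (ζ • ((δ : ℂ) • ξ)) := by fun_prop
        exact ((continuous_const.add h5).add (continuous_const.mul h3)).add continuous_const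
      · have hζ1 : ‖ζ‖ = 1 := by simpa using hζ
        have hζ' : ζ ∈ closedBall (0 : ℂ) 1 := by simp [hζ1]
        have h6 := htay (ζ • ((δ : ℂ) • ξ))
          ((hnorm ζ hζ').trans_le ((min_le_left _ _).trans (min_le_right _ _)))
        have h7 : ‖ζ • ((δ : ℂ) • ξ)‖ = ‖(δ : ℂ) • ξ‖ := by rw [norm_smul, hζ1, one_mul]
        rw [h7] at h6
        have h8 := (abs_le.1 h6).2
        linarith
    have hBB : (B ((δ : ℂ) • ξ) ((δ : ℂ) • ξ) + B (I • ((δ : ℂ) • ξ)) (I • ((δ : ℂ) • ξ))) / 4 =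
        δ ^ 2 * hq (cHess q p) ξ := by
      rw [hq_cHess hq2, smul_comm I (δ : ℂ) ξ, Complex.coe_smul, Complex.coe_smul]
      simp only [map_smul, _root_.smul_apply, smul_eq_mul]
      ring
    have hfin : 0 ≤ δ ^ 2 * (hq (cHess q p) ξ + hq (θ e p) ξ + ε) := by
      have hnn : ‖(δ : ℂ) • ξ‖ ^ 2 = δ ^ 2 * ‖ξ‖ ^ 2 := by
        rw [norm_smul, Complex.norm_real, Real.norm_of_nonneg hδ0.le]; ring
      rw [hnn, hBB] at hupper
      have h9 : ε' * (‖ξ‖ ^ 2 + 1) = ε := by rw [hε']; field_simp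
      have h10 : δ ^ 2 * (hq (cHess q p) ξ + hq (θ e p) ξ + ε) =
          δ ^ 2 * hq (cHess q p) ξ + ε' * (δ ^ 2 * ‖ξ‖ ^ 2) +
            δ ^ 2 * (hq (θ e p) ξ + ε') := by rw [← h9]; ring
      rw [h10]
      have h11 : ψ x = q p := heq.symm
      linarith
    have := nonneg_of_mul_nonneg_right hfin (by positivity : 0 < δ ^ 2)
    linarith
  have h1 : star y ⬝ᵥ (cHess q p + θ e p).mulVec y =
      ((hq (cHess q p + θ e p) ξ : ℝ) : ℂ) := by
    apply Complex.ext
    · rw [hq, hξ, star_star, Complex.ofReal_re]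
    · rw [Complex.ofReal_im]
      have := hHerm.im_star_dotProduct_mulVec_self y
      simpa using this
  rw [h1, hq_add]
  exact_mod_cast hkey

end Vale.Agent.P272.S2B
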