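import Vale.Agent.P272.S2B.Final
import Vale.Agent.P272.S2B.SubMean

/-!
# P272, stages 2 and 3: nefness and positivity from the sub-mean value property

The functions `ψ` are provided by holomorphic discs.
-/

open scoped Manifold ContDiff ComplexOrder Topology Matrix
open Complex Set Filter MeasureTheory Metric

noncomputable section

namespace Vale.Agent.P272.S2B

open Vale.Agent.P272.K

variable {n : ℕ} {X : Type} [TopologicalSpace X] [ChartedSpace (Cm n) X]
variable {w : Chart n X → Cm n → Matrix (Fin n) (Fin n) ℂ}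

/-- What the discs have to provide at `t0 ≥ 0`: uniformly bounded upper semicontinuous `ψ` with the
sub-mean value property for `g_t - b w`. -/
def SubAt (w : Chart n X → Cm n → Matrix (Fin n) (Fin n) ℂ) (t0 : ℝ) : Prop :=
  ∃ b C0 C1 : ℝ, 0 < b ∧ ∀ t : ℝ, t0 < t → t ≤ t0 + 1 → ∀ φ : Chart n X → Cm n → ℝ,
    IsKE w t φ → ∃ ψ : X → ℝ, UpperSemicontinuous ψ ∧ (∀ x, -C0 ≤ ψ x) ∧ (∀ x, ψ x ≤ C1) ∧
      SubMean (fun e z => gt w t φ e z - (b : ℂ) • w e z) ψ

variable [IsManifold 𝓘(ℂ, Cm n) ω X]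

theorem viscAt_of_subAt (hw : IsKahler w) {t0 : ℝ} (h : SubAt w t0) : ViscAt w t0 := by
  obtain ⟨b, C0, C1, hb, hψ⟩ := h
  refine ⟨b, C0, C1, hb, fun t h1 h2 φ hφ => ?_⟩
  obtain ⟨ψ, a1, a2, a3, a4⟩ := hψ t h1 h2 φ hφ
  refine ⟨ψ, a1, a2, a3, visc_of_subMean (fun e x hx => ?_) (fun e x hx => ?_) a4⟩
  · have hg := (hφ.isKahler hw).toIsHermitian
    refine continuousAt_pi.2 fun i => continuousAt_pi.2 fun j => ?_
    exact (hg.smooth e x hx i j).continuousAt.sub
      (continuousAt_const.mul (hw.smooth e x hx i j).continuousAt)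
  · have hg := (hφ.pos e x hx).isHermitian
    have h1 : (b : ℂ) • w e (e x) = b • w e (e x) := by ext i j; simp
    show (gt w t φ e (e x) - (b : ℂ) • w e (e x)).IsHermitian
    rw [h1]
    exact hg.sub ((hw.posDef e x hx).isHermitian.smul (by simp [IsSelfAdjoint]))

variable [T2Space X] [CompactSpace X]

/-- **Stage 2.** -/
theorem nef_of_subMean (hw : IsKahler w)
    (H : ∀ t0 : ℝ, 0 < t0 → NefCanonical w t0 → SubAt w t0) : NefCanonical w 0 :=
  nef_of_visc hw fun t0 h1 h2 => viscAt_of_subAt hw (H t0 h1 h2)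

/-- the conclusion of stage 3 from viscosity subsolutions -/
theorem positive_of_visc (hw : IsKahler w) (hnef : NefCanonical w 0) (hv : ViscAt w 0) :
    ∃ φ : Chart n X → Cm n → ℝ, IsCanonicalMetric φ ∧
      ∀ e x, At e x → (cHess (φ e) (e x)).PosDef := by
  obtain ⟨b, C0, C1, hb, hψ⟩ := hv
  obtain ⟨C', hC', hbar⟩ := barrier hw (t1 := 0 + 1) (b := b) (C0 := C0) (C1 := C1) hb
  have hCi : 0 < C'⁻¹ := inv_pos.2 hC'
  set δ : ℝ := min (C'⁻¹ / 2) 1 with hδ
  have hδ0 : 0 < δ := lt_min (half_pos hCi) one_pos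
  have hδ1 : δ ≤ 1 := min_le_right _ _
  have hδC : δ ≤ C'⁻¹ / 2 := min_le_left _ _
  obtain ⟨φ, hφ⟩ := exists_ke hw hnef hδ0
  obtain ⟨ψ, h1, h2, h3, h4⟩ := hψ (0 + δ) (by linarith) (by linarith) φ hφ
  have key := hbar (0 + δ) (by linarith) (by linarith) φ hφ ψ h1 h2 h3 h4
  refine ⟨φ, hφ.can, fun e x hx => ?_⟩
  have k1 := (key e x hx).smul (α := ℝ) hCi.le
  have k2 := posDef_ofReal_smul (hw.posDef e x hx) (c := C'⁻¹ - δ) (by linarith)
  have k3 := Matrix.PosDef.posSemidef_add k1 k2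
  have k4 : (C'⁻¹ : ℝ) • ((C' : ℂ) • gt w (0 + δ) φ e (e x) - w e (e x)) +
      ((C'⁻¹ - δ : ℝ) : ℂ) • w e (e x) = cHess (φ e) (e x) := by
    have e1 : (C'⁻¹ : ℝ) • ((C' : ℂ) • gt w (0 + δ) φ e (e x) - w e (e x)) =
        gt w (0 + δ) φ e (e x) - ((C'⁻¹ : ℝ) : ℂ) • w e (e x) := by
      ext i j
      simp only [Matrix.smul_apply, Matrix.sub_apply, smul_eq_mul, Complex.real_smul]
      have : ((C'⁻¹ : ℝ) : ℂ) * (C' : ℂ) = 1 := by
        rw [← Complex.ofReal_mul, inv_mul_cancel₀ hC'.ne', Complex.ofReal_one]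
      linear_combination (gt w (0 + δ) φ e (e x) i j) * this
    rw [e1, gt]
    ext i j
    simp only [Matrix.smul_apply, Matrix.sub_apply, Matrix.add_apply, smul_eq_mul,
      Complex.ofReal_add, Complex.ofReal_sub, Complex.ofReal_zero]
    ring
  rwa [k4] at k3

/-- **Stage 3.** -/
theorem positive_of_subMean (hw : IsKahler w) (hnef : NefCanonical w 0) (h : SubAt w 0) :
    ∃ φ : Chart n X → Cm n → ℝ, IsCanonicalMetric φ ∧
      ∀ e x, At e x → (cHess (φ e) (e x)).PosDef :=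
  positive_of_visc hw hnef (viscAt_of_subAt hw h)

end Vale.Agent.P272.S2B
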