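import Vale.Agent.P272.S2B.Bounds
import Vale.Agent.P272.HY.Defs

/-!
# P272: positivity of the canonical bundle from a uniform Schwarz lemma

If every Kähler metric `g` with `Ric g ≥ -g` satisfies `C g ≥ w`, then the Aubin-Yau metrics in
`K_X + t[w]` show that `K_X` has a metric of positive curvature.
-/

open scoped Manifold ContDiff ComplexOrder Topology Matrix
open Complex Set Filter MeasureTheory Metric

noncomputable section

namespace Vale.Agent.P272.S2B

open Vale.Agent.P272.K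

variable {n : ℕ} {X : Type} [TopologicalSpace X] [ChartedSpace (Cm n) X]
variable {w : Chart n X → Cm n → Matrix (Fin n) (Fin n) ℂ}

/-- the uniform Schwarz lemma from below -/
def Schwarz (w : Chart n X → Cm n → Matrix (Fin n) (Fin n) ℂ) : Prop :=
  ∃ C : ℝ, 0 < C ∧ ∀ g : Chart n X → Cm n → Matrix (Fin n) (Fin n) ℂ, IsKahler g →
    HY.RicGe g → ∀ e x, At e x → ((C : ℂ) • g e (e x) - w e (e x)).PosSemidef

theorem ricGe_of_ke (hw : IsKahler w) {t : ℝ} (ht : 0 ≤ t) {φ : Chart n X → Cm n → ℝ}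
    (h : IsKE w t φ) : HY.RicGe (gt w t φ) := by
  intro e x hx
  rw [h.ric hx]
  have h1 : -(gt w t φ e (e x) + -((t : ℂ) • w e (e x))) + gt w t φ e (e x) =
      (t : ℂ) • w e (e x) := by abel
  rw [h1]
  exact posSemidef_ofReal_smul (hw.posDef e x hx).posSemidef ht

variable [IsManifold 𝓘(ℂ, Cm n) ω X] [T2Space X] [CompactSpace X]

/-- one step: the nef threshold drops by `C⁻¹` -/
theorem nef_step (hw : IsKahler w) {C : ℝ} (hC : 0 < C)
    (H : ∀ g : Chart n X → Cm n → Matrix (Fin n) (Fin n) ℂ, IsKahler g →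
      HY.RicGe g → ∀ e x, At e x → ((C : ℂ) • g e (e x) - w e (e x)).PosSemidef)
    {a : ℝ} (ha : 0 ≤ a) (hnef : NefCanonical w a) : NefCanonical w (a - C⁻¹) := by
  intro ε hε
  obtain ⟨φ, hφ⟩ := exists_ke hw hnef hε
  refine ⟨φ, hφ.can, fun e x hx => ?_⟩
  have k1 := (H _ (hφ.isKahler hw) (ricGe_of_ke hw (by linarith) hφ) e x hx).smul (α := ℝ)
    (inv_pos.2 hC).le
  have k4 : (C⁻¹ : ℝ) • ((C : ℂ) • gt w (a + ε) φ e (e x) - w e (e x)) =
      cHess (φ e) (e x) + ((a - C⁻¹ + ε : ℝ) : ℂ) • w e (e x) := by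
    have e1 : (C⁻¹ : ℝ) • ((C : ℂ) • gt w (a + ε) φ e (e x) - w e (e x)) =
        gt w (a + ε) φ e (e x) - ((C⁻¹ : ℝ) : ℂ) • w e (e x) := by
      ext i j
      simp only [Matrix.smul_apply, Matrix.sub_apply, smul_eq_mul, Complex.real_smul]
      have : ((C⁻¹ : ℝ) : ℂ) * (C : ℂ) = 1 := by
        rw [← Complex.ofReal_mul, inv_mul_cancel₀ hC.ne', Complex.ofReal_one]
      linear_combination (gt w (a + ε) φ e (e x) i j) * this
    rw [e1, gt]
    ext i j
    simp only [Matrix.smul_apply, Matrix.sub_apply, Matrix.add_apply, smul_eq_mul,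
      Complex.ofReal_add, Complex.ofReal_sub]
    ring
  rwa [k4] at k1

/-- `K_X + a[w]` nef for some negative `a` -/
theorem nef_neg (hw : IsKahler w) (h : Schwarz w) : ∃ a : ℝ, a < 0 ∧ NefCanonical w a := by
  obtain ⟨C, hC, H⟩ := h
  have hCi : 0 < C⁻¹ := inv_pos.2 hC
  obtain ⟨a0, ha0, hn0⟩ := exists_nef hw
  have key : ∀ k : ℕ, (∃ a : ℝ, a < 0 ∧ NefCanonical w a) ∨
      (0 ≤ a0 - k * C⁻¹ ∧ NefCanonical w (a0 - k * C⁻¹)) := by
    intro k
    induction k with
    | zero => right; simpa using ⟨ha0, hn0⟩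
    | succ k ih =>
      rcases ih with h | ⟨h1, h2⟩
      · exact Or.inl h
      · have h3 := nef_step hw hC H h1 h2
        have h4 : a0 - (k : ℝ) * C⁻¹ - C⁻¹ = a0 - ((k + 1 : ℕ) : ℝ) * C⁻¹ := by push_cast; ring
        rw [h4] at h3
        rcases lt_or_ge (a0 - ((k + 1 : ℕ) : ℝ) * C⁻¹) 0 with h5 | h5
        · exact Or.inl ⟨_, h5, h3⟩
        · exact Or.inr ⟨h5, h3⟩
  obtain ⟨k, hk⟩ := exists_nat_gt (a0 / C⁻¹)
  rcases key k with h | ⟨h1, -⟩
  · exact h
  · rw [div_lt_iff₀ hCi] at hk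
    linarith

/-- **Positivity.** A compact Kähler manifold with the uniform Schwarz lemma has positive
canonical bundle. -/
theorem positive_of_schwarz (hw : IsKahler w) (h : Schwarz w) :
    ∃ φ : Chart n X → Cm n → ℝ, IsCanonicalMetric φ ∧
      ∀ e x, At e x → (cHess (φ e) (e x)).PosDef := by
  obtain ⟨a, ha, hn⟩ := nef_neg hw h
  obtain ⟨φ, hφ, hp⟩ := hn (-a / 2) (by linarith)
  refine ⟨φ, hφ, fun e x hx => ?_⟩
  have h1 : cHess (φ e) (e x) = (cHess (φ e) (e x) + ((a + -a / 2 : ℝ) : ℂ) • w e (e x)) +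
      ((-a / 2 : ℝ) : ℂ) • w e (e x) := by
    rw [add_assoc, ← add_smul, ← Complex.ofReal_add]
    have : a + -a / 2 + -a / 2 = 0 := by ring
    rw [this]; simp
  rw [h1]
  exact Matrix.PosDef.posSemidef_add (hp e x hx) (posDef_ofReal_smul (hw.posDef e x hx) (by linarith))

/-- `K_X` is nef as well -/
theorem nef_zero_of_schwarz (hw : IsKahler w) (h : Schwarz w) : NefCanonical w 0 := by
  obtain ⟨a, ha, hn⟩ := nef_neg hw h
  exact nef_mono hw.toIsHermitian ha.le hn

end Vale.Agent.P272.S2B
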