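import Vale.Agent.P272.S2B.Defs
import Vale.Agent.P272.K.MP.Local
import Mathlib.Analysis.Calculus.MeanValue
import Mathlib.MeasureTheory.Constructions.HaarToSphere
import Mathlib.MeasureTheory.Measure.Lebesgue.VolumeOfBalls

/-!
# P272, stage 2: the second order Taylor estimate, Green's function of the disc
-/

open scoped Manifold ContDiff ComplexOrder Topology Matrix
open Complex Set Filter MeasureTheory Metric

noncomputable section

namespace Vale.Agent.P272.S2B

open Vale.Agent.P272.K

section taylor

variable {E : Type*} [NormedAddCommGroup E] [NormedSpace ℝ E]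

theorem taylor2 {q : E → ℝ} {p : E} (hq : ContDiffAt ℝ 2 q p) {ε : ℝ} (hε : 0 < ε) :
    ∃ r : ℝ, 0 < r ∧ ∀ v : E, ‖v‖ < r →
      |q (p + v) - q p - fderiv ℝ q p v - (1 / 2) * fderiv ℝ (fderiv ℝ q) p v v| ≤ ε * ‖v‖ ^ 2 := by
  have h1 : ∀ᶠ y in 𝓝 p, DifferentiableAt ℝ q y := by
    filter_upwards [hq.eventually (by simp)] with y hy
    exact hy.differentiableAt (by simp)
  have h2 : DifferentiableAt ℝ (fderiv ℝ q) p :=
    (hq.fderiv_right (m := 1) (by norm_num)).differentiableAt (by simp)
  have h3 := h2.hasFDerivAt.isLittleO.def hε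
  obtain ⟨r, hr, hball⟩ := Metric.eventually_nhds_iff_ball.1 (h1.and h3)
  refine ⟨r, hr, fun v hv => ?_⟩
  set B := fderiv ℝ (fderiv ℝ q) p with hB
  have hsymm : ∀ a b : E, B a b = B b a := fun a b => MP.fderiv2_symm hq a b
  set F : E → ℝ := fun u => q (p + u) - q p - fderiv ℝ q p u - (1 / 2) * B u u with hF
  have hder : ∀ u : E, ‖u‖ < r → HasFDerivAt F (fderiv ℝ q (p + u) - fderiv ℝ q p - B u) u := by
    intro u hu
    have hu' : p + u ∈ ball p r := by simpa [mem_ball, dist_eq_norm] using hu
    have d1 : HasFDerivAt (fun u => q (p + u)) (fderiv ℝ q (p + u)) u := by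
      have h6 : HasFDerivAt (fun u : E => p + u) (ContinuousLinearMap.id ℝ E) u :=
        (hasFDerivAt_id u).const_add p
      exact HasFDerivAt.comp (g := q) (f := fun u : E => p + u) u (hball _ hu').1.hasFDerivAt h6
    have d2 : HasFDerivAt (fun u => fderiv ℝ q p u) (fderiv ℝ q p) u :=
      (fderiv ℝ q p).hasFDerivAt
    have d3 : HasFDerivAt (fun u => B u u) (B u + B.flip u) u := by
      have := B.hasFDerivAt (x := u)
      have h5 := this.clm_apply (hasFDerivAt_id u)
      refine h5.congr_fderiv ?_
      ext a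
      simp
    have d4 := ((d1.sub_const (q p)).sub d2).sub (d3.const_mul (1 / 2 : ℝ))
    refine d4.congr_fderiv ?_
    ext a
    simp [hsymm a u]
    ring
  have hbound : ∀ u ∈ closedBall (0 : E) ‖v‖, ‖fderiv ℝ q (p + u) - fderiv ℝ q p - B u‖ ≤
      ε * ‖v‖ := by
    intro u hu
    have hu1 : ‖u‖ ≤ ‖v‖ := by simpa using hu
    have hu' : p + u ∈ ball p r := by
      simpa [mem_ball, dist_eq_norm] using lt_of_le_of_lt hu1 hv
    have := (hball _ hu').2
    simp only [add_sub_cancel_left] at this
    exact this.trans (mul_le_mul_of_nonneg_left hu1 hε.le)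
  have key := (convex_closedBall (0 : E) ‖v‖).norm_image_sub_le_of_norm_hasFDerivWithin_le
    (f := F) (f' := fun u => fderiv ℝ q (p + u) - fderiv ℝ q p - B u) (C := ε * ‖v‖)
    (fun u hu => (hder u (lt_of_le_of_lt (by simpa using hu) hv)).hasFDerivWithinAt) hbound
    (x := 0) (y := v) (by simp) (by simp)
  have hF0 : F 0 = 0 := by simp [hF]
  rw [hF0, sub_zero, sub_zero, Real.norm_eq_abs] at key
  calc |q (p + v) - q p - fderiv ℝ q p v - 1 / 2 * B v v| = |F v| := rfl
    _ ≤ ε * ‖v‖ * ‖v‖ := key
    _ = ε * ‖v‖ ^ 2 := by ring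

end taylor

section green

theorem G0_nonneg {t : ℂ} (ht : t ∈ ball (0 : ℂ) 1) : 0 ≤ G0 t := by
  have h1 : ‖t‖ < 1 := by simpa using ht
  have h2 : 0 ≤ Real.log (1 / ‖t‖) := by
    rcases (norm_nonneg t).eq_or_lt with h | h
    · rw [← h]; simp
    · exact Real.log_nonneg (by rw [le_div_iff₀ h]; linarith)
  unfold G0
  positivity

/-- the radial profile of Green's function -/
def gp (y : ℝ) : ℝ := (Iio (1 : ℝ)).indicator (fun y => 2 / Real.pi * Real.log (1 / y)) y

theorem G0_eq (t : ℂ) : (ball (0 : ℂ) 1).indicator G0 t = gp ‖t‖ := by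
  by_cases h : ‖t‖ < 1
  · rw [indicator_of_mem (by simpa using h), gp, indicator_of_mem (by simpa using h)]; rfl
  · rw [indicator_of_notMem (by simpa using h), gp, indicator_of_notMem (by simpa using h)]

theorem hasDerivAt_prim {y : ℝ} (hy : 0 < y) :
    HasDerivAt (fun y : ℝ => y ^ 2 / 4 - y * (y * Real.log y) / 2) (y * Real.log (1 / y)) y := by
  have h1 := (Real.hasDerivAt_log hy.ne')
  have h2 := (hasDerivAt_id' y).mul ((hasDerivAt_id' y).mul h1)
  have h3 := ((hasDerivAt_pow 2 y).div_const 4).sub (h2.div_const 2)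
  refine h3.congr_deriv ?_
  rw [one_div, Real.log_inv]
  simp only [Pi.mul_apply]
  field_simp
  ring

theorem integral_prof : ∫ y in (0:ℝ)..1, y * Real.log (1 / y) = 1 / 4 := by
  have hc : ContinuousOn (fun y : ℝ => y ^ 2 / 4 - y * (y * Real.log y) / 2) (Icc 0 1) := by
    have := Real.continuous_mul_log
    fun_prop
  have hi : IntervalIntegrable (fun y : ℝ => y * Real.log (1 / y)) volume 0 1 := by
    have : (fun y : ℝ => y * Real.log (1 / y)) = fun y => -(y * Real.log y) := by
      ext y; rw [one_div, Real.log_inv]; ring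
    rw [this]
    exact (Real.continuous_mul_log.neg).intervalIntegrable _ _
  rw [intervalIntegral.integral_eq_sub_of_hasDerivAt_of_le zero_le_one hc
    (fun y hy => hasDerivAt_prim hy.1) hi]
  simp

theorem integral_G0 : ∫ t in ball (0 : ℂ) 1, G0 t = 1 := by
  rw [← integral_indicator measurableSet_ball]
  have h1 : (fun t : ℂ => (ball (0 : ℂ) 1).indicator G0 t) = fun t => gp ‖t‖ := funext G0_eq
  rw [h1, integral_fun_norm_addHaar (μ := volume) gp]
  have h2 : ∫ y in Ioi (0:ℝ), y ^ (Module.finrank ℝ ℂ - 1) • gp y =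
      ∫ y in (0:ℝ)..1, (2 / Real.pi) * (y * Real.log (1 / y)) := by
    rw [intervalIntegral.integral_of_le zero_le_one, integral_Ioc_eq_integral_Ioo,
      ← integral_indicator measurableSet_Ioi, ← integral_indicator measurableSet_Ioo]
    congr 1
    ext y
    by_cases h0 : 0 < y
    · by_cases h1 : y < 1
      · rw [indicator_of_mem (by simpa using h0), indicator_of_mem (by simp [h0, h1]), gp,
          indicator_of_mem (by simpa using h1)]
        simp
        ring
      · rw [indicator_of_mem (by simpa using h0), indicator_of_notMem (by simp [h1]), gp,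
          indicator_of_notMem (by simpa using h1)]
        simp
    · rw [indicator_of_notMem (by simpa using h0), indicator_of_notMem (by simp [h0])]
  rw [h2, intervalIntegral.integral_const_mul, integral_prof]
  have h3 : volume.real (ball (0 : ℂ) 1) = Real.pi := by
    simp [Measure.real, Complex.volume_ball]
  rw [h3]
  simp
  field_simp
  norm_num

theorem integrableOn_G0 : IntegrableOn G0 (ball (0 : ℂ) 1) := by
  by_contra h
  have := integral_G0
  rw [integral_undef h] at this
  norm_num at this

end green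

end Vale.Agent.P272.S2B
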