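import Vale.Agent.P272.S2B.Exist

/-!
# P272, stage 2: the nef threshold
-/

open scoped Manifold ContDiff ComplexOrder Topology
open Complex Set Filter MeasureTheory Metric

noncomputable section

namespace Vale.Agent.P272.S2B

open Vale.Agent.P272.K

variable {n : ℕ} {X : Type} [TopologicalSpace X] [ChartedSpace (Cm n) X]
variable {w : Chart n X → Cm n → Matrix (Fin n) (Fin n) ℂ} {φ : Chart n X → Cm n → ℝ} {t : ℝ}

theorem nef_mono (hw : IsHermitian w) {a b : ℝ} (hab : a ≤ b) (h : NefCanonical w a) :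
    NefCanonical w b := by
  intro ε hε
  obtain ⟨φ, hφ, hp⟩ := h ε hε
  refine ⟨φ, hφ, fun e x hx => ?_⟩
  have h1 := (hp e x hx).add (posSemidef_ofReal_smul (hw.posDef e x hx).posSemidef
    (sub_nonneg.2 hab))
  have h2 : cHess (φ e) (e x) + ((a + ε : ℝ) : ℂ) • w e (e x) + ((b - a : ℝ) : ℂ) • w e (e x) =
      cHess (φ e) (e x) + ((b + ε : ℝ) : ℂ) • w e (e x) := by
    rw [add_assoc, ← add_smul]
    congr 2
    push_cast; ring
  rwa [h2] at h1

/-- `log det w` is a metric on the canonical bundle -/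
theorem isCanonical_log_det [IsManifold 𝓘(ℂ, Cm n) ω X] (hw : IsHermitian w) :
    IsCanonicalMetric fun e z => Real.log (w e z).det.re where
  smooth e x hx := (contDiffAt_re (contDiffAt_det (hw.smooth e x hx))).log
    (hw.det_re_pos hx).ne'
  change e e' x hx hx' := log_det_change hw hx hx'

end Vale.Agent.P272.S2B
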